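import Mathlib

/-!
P324: three-machine scheduling of unit jobs, the slack above the height.

If the precedence graph contains a path with `h` vertices and the target length is `T`,
then a schedule of length `T` on three machines exists exactly when, for one of at most
`choose T h * (n + 1) ^ (T - h)` guesses (slots of the path, plus at most one further job on
each of the `T - h` slots that the path leaves free), the remaining jobs have a schedule on
two machines with release times and deadlines.  The latter is the feasibility question
`P2 | prec, r_j, d_j, p_j = 1`.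
-/

namespace Vale.Agent.Results.P324.A_slack

open Finset
open scoped Classical

noncomputable section

variable {V : Type*} [Fintype V]

/-- A schedule of length `T` on `m` machines: a map from the jobs into the `T` slots `Fin T`
taking each value at most `m` times, with `τ u < τ v` on every arc. -/
def IsSchedule (E : V → V → Prop) (m T : ℕ) (τ : V → Fin T) : Prop :=
  (∀ t, (univ.filter fun v => τ v = t).card ≤ m) ∧ ∀ u v, E u v → τ u < τ v

/-- A feasible solution of `P_m | prec, r_j, d_j, p_j = 1` on the job set `J` with arcs `A`,
release slots `r` and exclusive deadlines `d`: a map `ρ` into the natural numbers with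
`r j ≤ ρ j < d j`, taking each value at most `m` times, with `ρ u < ρ v` on every arc. -/
def IsWindowSchedule {J : Type*} [Fintype J] (A : J → J → Prop) (m : ℕ) (r d : J → ℕ)
    (ρ : J → ℕ) : Prop :=
  (∀ j, r j ≤ ρ j ∧ ρ j < d j) ∧
    (∀ t, (univ.filter fun j => ρ j = t).card ≤ m) ∧
    ∀ u v, A u v → ρ u < ρ v

/-- `c` lists the `h` vertices of a directed path of the graph `E`: consecutive vertices are
joined by arcs (in an acyclic graph the vertices are then automatically distinct). -/
def IsPath (E : V → V → Prop) {h : ℕ} (c : Fin h → V) : Prop :=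
  ∀ i j : Fin h, i.val + 1 = j.val → E (c i) (c j)

/-- A guess `φ` fixes at most one job on each slot: the path `c` is fixed on a strictly
increasing list of slots, no job is fixed on two slots, and the fixed jobs respect the arcs
between them. -/
def IsGuess (E : V → V → Prop) {h T : ℕ} (c : Fin h → V) (φ : Fin T → Option V) : Prop :=
  (∃ a : Fin h → Fin T, StrictMono a ∧ ∀ i, φ (a i) = some (c i)) ∧
    (∀ s t v, φ s = some v → φ t = some v → s = t) ∧
    (∀ s t u v, φ s = some u → φ t = some v → E u v → s < t)

/-- The finite set of all guesses. -/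
def guesses (E : V → V → Prop) {h T : ℕ} (c : Fin h → V) : Finset (Fin T → Option V) :=
  univ.filter (IsGuess E c)

/-- Release slot of a job: one more than the largest slot of a fixed predecessor, else `0`. -/
def release (E : V → V → Prop) {T : ℕ} (φ : Fin T → Option V) (v : V) : ℕ :=
  univ.sup fun t : Fin T => if ∃ u, φ t = some u ∧ E u v then t.val + 1 else 0

/-- Exclusive deadline of a job: the smallest slot of a fixed successor, else `T`. -/
def deadline (E : V → V → Prop) {T : ℕ} (φ : Fin T → Option V) (v : V) : ℕ :=
  univ.fold min T fun t : Fin T => if ∃ w, φ t = some w ∧ E v w then t.val else T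

/-- The jobs that a guess leaves free. -/
abbrev Rest {T : ℕ} (φ : Fin T → Option V) : Type _ := {v : V // ∀ t, φ t ≠ some v}

omit [Fintype V] in
lemma path_strictMono {E : V → V → Prop} {h T : ℕ} {c : Fin h → V}
    (hc : IsPath E c)
    {τ : V → Fin T} (hτ : ∀ u v, E u v → τ u < τ v) : StrictMono (fun i => τ (c i)) := by
  have key : ∀ n (i j : Fin h), j.val = i.val + n + 1 → τ (c i) < τ (c j) := by
    intro n
    induction n with
    | zero => intro i j hj; exact hτ _ _ (hc i j (by omega))
    | succ n ih =>
      intro i j hj
      have hk : i.val + n + 1 < h := by have := j.isLt; omega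
      have h1 := ih i ⟨i.val + n + 1, hk⟩ rfl
      have h2 := hτ _ _ (hc ⟨i.val + n + 1, hk⟩ j (by simp only []; omega))
      exact h1.trans h2
  intro i j hij
  have hij' : i.val < j.val := hij
  exact key (j.val - i.val - 1) i j (by omega)

/-- The guess read off from a schedule. -/
def pick {h T : ℕ} (τ : V → Fin T) (c : Fin h → V) (t : Fin T) : Option V :=
  if h1 : ∃ i, τ (c i) = t then some (c h1.choose)
  else if h2 : ∃ v, τ v = t then some h2.choose else none

lemma pick_spec {h T : ℕ} {τ : V → Fin T} {c : Fin h → V} {t : Fin T} {v : V}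
    (hv : pick τ c t = some v) : τ v = t := by
  unfold pick at hv
  split_ifs at hv with h1 h2
  · have := Option.some.inj hv
    rw [← this]; exact h1.choose_spec
  · have := Option.some.inj hv
    rw [← this]; exact h2.choose_spec

lemma pick_none {h T : ℕ} {τ : V → Fin T} {c : Fin h → V} {t : Fin T}
    (hn : pick τ c t = none) (v : V) : τ v ≠ t := by
  intro hv
  unfold pick at hn
  split_ifs at hn with h1 h2
  exact h2 ⟨v, hv⟩

lemma pick_chain {h T : ℕ} {τ : V → Fin T} {c : Fin h → V}
    (hmono : StrictMono (fun i => τ (c i))) (i : Fin h) : pick τ c (τ (c i)) = some (c i) := by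
  unfold pick
  have h1 : ∃ j, τ (c j) = τ (c i) := ⟨i, rfl⟩
  rw [dif_pos h1]
  have : h1.choose = i := hmono.injective h1.choose_spec
  rw [this]

/-- A schedule on `m + 1` machines yields a guess and a residual window schedule on `m`. -/
lemma forward {E : V → V → Prop} {m h T : ℕ} {c : Fin h → V}
    (hc : IsPath E c)
    {τ : V → Fin T} (hτ : IsSchedule E (m + 1) T τ) :
    ∃ φ ∈ (guesses E c : Finset (Fin T → Option V)),
      ∃ ρ : Rest φ → ℕ, IsWindowSchedule (fun a b : Rest φ => E a.1 b.1) m
        (fun a => release E φ a.1) (fun a => deadline E φ a.1) ρ := by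
  have hmono := path_strictMono hc hτ.2
  refine ⟨pick τ c, ?_, fun a => (τ a.1).val, ?_, ?_, ?_⟩
  · simp only [guesses, mem_filter, mem_univ, true_and]
    refine ⟨⟨fun i => τ (c i), hmono, pick_chain hmono⟩, ?_, ?_⟩
    · intro s t v hs ht
      exact (pick_spec hs).symm.trans (pick_spec ht)
    · intro s t u v hs ht he
      rw [← pick_spec hs, ← pick_spec ht]
      exact hτ.2 u v he
  · intro a
    constructor
    · refine Finset.sup_le fun t _ => ?_
      split_ifs with hu
      · obtain ⟨u, hu, he⟩ := hu
        have h1 := pick_spec hu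
        have h2 := hτ.2 u a.1 he
        rw [h1] at h2
        exact h2
      · exact Nat.zero_le _
    · refine (Finset.lt_fold_min _).mpr ⟨(τ a.1).isLt, fun t _ => ?_⟩
      split_ifs with hw
      · obtain ⟨w, hw, he⟩ := hw
        have h1 := pick_spec hw
        have h2 := hτ.2 a.1 w he
        rw [h1] at h2
        exact h2
      · exact (τ a.1).isLt
  · intro t
    by_cases htT : t < T
    · set t' : Fin T := ⟨t, htT⟩ with ht'
      rcases hφ : pick τ c t' with _ | v
      · have : (univ.filter fun a : Rest (pick τ c) => (τ a.1).val = t) = ∅ := by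
          apply filter_eq_empty_iff.mpr
          intro a _ ha
          exact pick_none hφ a.1 (Fin.ext ha)
        rw [this]; simp
      · have hv : τ v = t' := pick_spec hφ
        have hsub : ((univ.filter fun a : Rest (pick τ c) => (τ a.1).val = t).image Subtype.val)
            ⊆ (univ.filter fun x => τ x = t').erase v := by
          intro x hx
          obtain ⟨a, ha, rfl⟩ := mem_image.mp hx
          have ha' := (mem_filter.mp ha).2
          refine mem_erase.mpr ⟨?_, mem_filter.mpr ⟨mem_univ _, Fin.ext ha'⟩⟩
          intro hav
          exact a.2 t' (by rw [hφ, hav])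
        have hvmem : v ∈ univ.filter (fun x => τ x = t') := mem_filter.mpr ⟨mem_univ _, hv⟩
        have hcard := card_le_card hsub
        rw [card_image_of_injective _ Subtype.val_injective, card_erase_of_mem hvmem] at hcard
        have h5 := hτ.1 t'
        exact hcard.trans (by omega)
    · have : (univ.filter fun a : Rest (pick τ c) => (τ a.1).val = t) = ∅ := by
        apply filter_eq_empty_iff.mpr
        intro a _ ha
        exact htT (ha ▸ (τ a.1).isLt)
      rw [this]; simp
  · intro u v he
    exact hτ.2 u.1 v.1 he

omit [Fintype V] in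
lemma deadline_le (E : V → V → Prop) {T : ℕ} (φ : Fin T → Option V) (v : V) :
    deadline E φ v ≤ T :=
  (Finset.fold_min_le _).mpr (Or.inl le_rfl)

/-- A guess with a residual window schedule on `m` machines yields a schedule on `m + 1`. -/
lemma backward {E : V → V → Prop} {m h T : ℕ} {c : Fin h → V}
    {φ : Fin T → Option V} (hφ : φ ∈ (guesses E c : Finset (Fin T → Option V)))
    {ρ : Rest φ → ℕ} (hρ : IsWindowSchedule (fun a b : Rest φ => E a.1 b.1) m
        (fun a => release E φ a.1) (fun a => deadline E φ a.1) ρ) :
    ∃ τ : V → Fin T, IsSchedule E (m + 1) T τ := by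
  simp only [guesses, mem_filter, mem_univ, true_and] at hφ
  obtain ⟨-, hinj, hcons⟩ := hφ
  obtain ⟨hw, hcap, harc⟩ := hρ
  have hfree : ∀ v, ¬ (∃ t, φ t = some v) → ∀ t, φ t ≠ some v := by
    intro v hv t ht
    exact hv ⟨t, ht⟩
  let τ : V → Fin T := fun v =>
    if hv : ∃ t, φ t = some v then hv.choose
    else ⟨ρ ⟨v, hfree v hv⟩, lt_of_lt_of_le (hw ⟨v, hfree v hv⟩).2 (deadline_le E φ v)⟩
  have hτfix : ∀ s v, φ s = some v → τ v = s := by
    intro s v hs
    have hv : ∃ t, φ t = some v := ⟨s, hs⟩
    have : τ v = hv.choose := dif_pos hv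
    rw [this]
    exact hinj _ _ v hv.choose_spec hs
  have hτfree : ∀ v (hv : ∀ t, φ t ≠ some v), (τ v).val = ρ ⟨v, hv⟩ := by
    intro v hv
    have hv' : ¬ ∃ t, φ t = some v := fun ⟨t, ht⟩ => hv t ht
    have : τ v = ⟨ρ ⟨v, hfree v hv'⟩,
        lt_of_lt_of_le (hw ⟨v, hfree v hv'⟩).2 (deadline_le E φ v)⟩ := dif_neg hv'
    rw [this]
  refine ⟨τ, ?_, ?_⟩
  · intro t
    have hsub : (univ.filter fun v => τ v = t) ⊆
        ((univ.filter fun a : Rest φ => ρ a = t.val).image Subtype.val) ∪ (φ t).toFinset := by
      intro v hv
      have hv' := (mem_filter.mp hv).2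
      by_cases hfix : ∃ s, φ s = some v
      · obtain ⟨s, hs⟩ := hfix
        have : s = t := by rw [← hv', hτfix s v hs]
        subst this
        exact mem_union_right _ (by simp [hs])
      · have hfr : ∀ s, φ s ≠ some v := fun s hs => hfix ⟨s, hs⟩
        refine mem_union_left _ (mem_image.mpr ⟨⟨v, hfr⟩, mem_filter.mpr ⟨mem_univ _, ?_⟩, rfl⟩)
        rw [← hτfree v hfr, hv']
    have h1 := card_le_card hsub
    have h2 := card_union_le ((univ.filter fun a : Rest φ => ρ a = t.val).image Subtype.val)
      (φ t).toFinset
    have h3 : ((univ.filter fun a : Rest φ => ρ a = t.val).image Subtype.val).card ≤ m :=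
      card_image_le.trans (hcap t.val)
    have h4 : (φ t).toFinset.card ≤ 1 := by
      cases φ t <;> simp
    omega
  · intro u v he
    by_cases hu : ∃ s, φ s = some u
    · obtain ⟨s, hs⟩ := hu
      rw [hτfix s u hs]
      by_cases hv : ∃ t, φ t = some v
      · obtain ⟨t, ht⟩ := hv
        rw [hτfix t v ht]
        exact hcons s t u v hs ht he
      · have hfr : ∀ t, φ t ≠ some v := fun t ht => hv ⟨t, ht⟩
        have h1 : s.val + 1 ≤ release E φ v := by
          have h0 : (if ∃ u, φ s = some u ∧ E u v then s.val + 1 else 0) ≤ release E φ v :=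
            Finset.le_sup (f := fun t : Fin T =>
              if ∃ u, φ t = some u ∧ E u v then t.val + 1 else 0) (mem_univ s)
          rwa [if_pos ⟨u, hs, he⟩] at h0
        have h2 := (hw ⟨v, hfr⟩).1
        have h3 := hτfree v hfr
        show s.val < (τ v).val
        simp only [] at h2
        omega
    · have hfr : ∀ t, φ t ≠ some u := fun t ht => hu ⟨t, ht⟩
      by_cases hv : ∃ t, φ t = some v
      · obtain ⟨t, ht⟩ := hv
        rw [hτfix t v ht]
        have h1 : deadline E φ u ≤ t.val := by
          refine (Finset.fold_min_le _).mpr (Or.inr ⟨t, mem_univ t, ?_⟩)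
          rw [if_pos ⟨v, ht, he⟩]
        have h2 := (hw ⟨u, hfr⟩).2
        have h3 := hτfree u hfr
        show (τ u).val < t.val
        simp only [] at h2
        omega
      · have hfr' : ∀ t, φ t ≠ some v := fun t ht => hv ⟨t, ht⟩
        have h1 := harc ⟨u, hfr⟩ ⟨v, hfr'⟩ he
        have h2 := hτfree u hfr
        have h3 := hτfree v hfr'
        show (τ u).val < (τ v).val
        omega

/-- The number of guesses. -/
lemma card_guesses (E : V → V → Prop) {h T : ℕ} (c : Fin h → V) :
    (guesses E c : Finset (Fin T → Option V)).card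
      ≤ Nat.choose T h * (Fintype.card V + 1) ^ (T - h) := by
  let fib : Finset (Fin T) → Finset (Fin T → Option V) := fun S =>
    univ.filter fun φ => ∃ hS : S.card = h, ∀ i, φ (S.orderEmbOfFin hS i) = some (c i)
  have hsub : (guesses E c : Finset (Fin T → Option V)) ⊆
      (powersetCard h (univ : Finset (Fin T))).biUnion fib := by
    intro φ hφ
    simp only [guesses, mem_filter, mem_univ, true_and] at hφ
    obtain ⟨⟨a, ha, hac⟩, -, -⟩ := hφ
    have hScard : (univ.image a).card = h := by
      rw [card_image_of_injective _ ha.injective]; simp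
    refine mem_biUnion.mpr ⟨univ.image a, mem_powersetCard.mpr ⟨subset_univ _, hScard⟩, ?_⟩
    simp only [fib, mem_filter, mem_univ, true_and]
    refine ⟨hScard, fun i => ?_⟩
    have : a = (univ.image a).orderEmbOfFin hScard :=
      orderEmbOfFin_unique hScard (fun x => mem_image_of_mem _ (mem_univ _)) ha
    rw [← this]; exact hac i
  have hfib : ∀ S ∈ powersetCard h (univ : Finset (Fin T)),
      (fib S).card ≤ (Fintype.card V + 1) ^ (T - h) := by
    intro S hS
    have hS' : S.card = h := (mem_powersetCard.mp hS).2
    have hle : (fib S).card ≤ (univ : Finset ({t // t ∉ S} → Option V)).card := by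
      refine card_le_card_of_injOn (fun φ t => φ t.1) (fun _ _ => mem_univ _) ?_
      intro φ hφ ψ hψ heq
      have hφ' : ∃ hS : S.card = h, ∀ i, φ (S.orderEmbOfFin hS i) = some (c i) :=
        (mem_filter.mp hφ).2
      have hψ' : ∃ hS : S.card = h, ∀ i, ψ (S.orderEmbOfFin hS i) = some (c i) :=
        (mem_filter.mp hψ).2
      obtain ⟨_, hφ2⟩ := hφ'
      obtain ⟨_, hψ2⟩ := hψ'
      funext t
      by_cases ht : t ∈ S
      · have hr : t ∈ Set.range (S.orderEmbOfFin hS') := by
          rw [range_orderEmbOfFin]; exact ht
        obtain ⟨i, rfl⟩ := hr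
        rw [hφ2 i, hψ2 i]
      · exact congrFun heq ⟨t, ht⟩
    refine hle.trans (le_of_eq ?_)
    rw [card_univ, Fintype.card_fun, Fintype.card_option, Fintype.card_subtype_compl,
      Fintype.card_coe, hS', Fintype.card_fin]
  calc (guesses E c : Finset (Fin T → Option V)).card
      ≤ ((powersetCard h (univ : Finset (Fin T))).biUnion fib).card := card_le_card hsub
    _ ≤ ∑ S ∈ powersetCard h (univ : Finset (Fin T)), (fib S).card := card_biUnion_le
    _ ≤ ∑ _S ∈ powersetCard h (univ : Finset (Fin T)), (Fintype.card V + 1) ^ (T - h) :=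
        sum_le_sum hfib
    _ = Nat.choose T h * (Fintype.card V + 1) ^ (T - h) := by
        rw [sum_const, card_powersetCard, card_univ, Fintype.card_fin, smul_eq_mul]

/-- **Slack reduction for `P3 | prec, p_j = 1 | C_max`.**  Let `c` be a directed path with `h`
vertices in the precedence graph `E` on the `n` jobs `V` and let `T` be the target length.  There
are at most `choose T h * (n + 1) ^ (T - h)` guesses, and a schedule of length `T` on three
machines exists iff for some guess the jobs left free have a feasible schedule on two machines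
with the explicit release times and deadlines determined by the guess (and with the arcs of
`E` among them).  The same holds with `m + 1` and `m` machines in place of three and two. -/
theorem result (E : V → V → Prop) {h T : ℕ} (c : Fin h → V) (hc : IsPath E c) :
    ((guesses E c : Finset (Fin T → Option V)).card
        ≤ Nat.choose T h * (Fintype.card V + 1) ^ (T - h)) ∧
    ((∃ τ : V → Fin T, IsSchedule E 3 T τ) ↔
      ∃ φ ∈ (guesses E c : Finset (Fin T → Option V)),
        ∃ ρ : Rest φ → ℕ, IsWindowSchedule (fun a b : Rest φ => E a.1 b.1) 2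
          (fun a => release E φ a.1) (fun a => deadline E φ a.1) ρ) :=
  ⟨card_guesses E c, fun ⟨_, hτ⟩ => forward hc hτ, fun ⟨_, hφ, _, hρ⟩ => backward hφ hρ⟩

end

end Vale.Agent.Results.P324.A_slack
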